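import Vale.Agent.Lib.P295.helper67.Quadric

/-!
# P295: the stable coordinate conjecture in degree at most two
-/

namespace Vale.Agent.Results.P295.DegreeTwo

open MvPolynomial Vale.Agent.Lib.P295

/-- For every `n` and `m`, a polynomial `f` of total degree at most two in `n` complex variables
that is a coordinate of the polynomial ring in `n + m` variables (an `m`-stable coordinate; `f` is
moved to the larger ring by the inclusion of the first `n` variables) is already a coordinate of
the polynomial ring in `n` variables. -/
theorem result :
    ∀ (n m : ℕ) (f : MvPolynomial (Fin n) ℂ), f.totalDegree ≤ 2 →
      IsCoord (n + m) (rename (Fin.castAdd m) f) → IsCoord n f :=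
  fun n m f hf h => stable_coord_of_totalDegree_le_two n m f hf h

end Vale.Agent.Results.P295.DegreeTwo
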