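import Mathlib
import Vale.Agent.Lib.P295.helper67.Quadric
import Vale.Agent.Lib.P295.helper86.Classes

/-!
# P295: the stable coordinate conjecture for three classes of polynomials, in one statement
-/

namespace Vale.Agent.Results.P295.ThreeClasses

open MvPolynomial Vale.Agent.Lib.P295

/-- Let `f` be a polynomial in `n` complex variables that is a coordinate of the polynomial ring in
`n + m` variables (an `m`-stable coordinate; `f` is moved to the larger ring by the inclusion of
the first `n` variables).  Then `f` is a coordinate of the polynomial ring in `n` variables in each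
of the following cases: (1) `f` has total degree at most two; (2) `f` is weighted-homogeneous for
positive integer weights `w`; (3) `f = q_1(x_1) + ⋯ + q_n(x_n)` with one-variable polynomials
`q_i`. -/
theorem result :
    (∀ (n m : ℕ) (f : MvPolynomial (Fin n) ℂ), f.totalDegree ≤ 2 →
        IsCoord (n + m) (rename (Fin.castAdd m) f) → IsCoord n f) ∧
    (∀ (n m : ℕ) (w : Fin n → ℕ) (d : ℕ) (f : MvPolynomial (Fin n) ℂ), (∀ i, 0 < w i) →
        IsWeightedHomogeneous w f d →
        IsCoord (n + m) (rename (Fin.castAdd m) f) → IsCoord n f) ∧
    (∀ (n m : ℕ) (q : Fin n → Polynomial ℂ),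
        IsCoord (n + m)
          (rename (Fin.castAdd m)
            (∑ i, Polynomial.aeval (X i : MvPolynomial (Fin n) ℂ) (q i))) →
        IsCoord n (∑ i, Polynomial.aeval (X i : MvPolynomial (Fin n) ℂ) (q i))) :=
  ⟨fun n m f hf h => stable_coord_of_totalDegree_le_two n m f hf h,
    fun n m w d f hw hf h => Vale.Agent.Lib.P295.H86.weighted_stable_coord n m w hw d f hf h,
    fun n m q h => Vale.Agent.Lib.P295.H86.separated_stable_coord n m q h⟩

end Vale.Agent.Results.P295.ThreeClasses
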